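import Vale.Agent.P224.PO.IdX
import Vale.Agent.P224.PO.R9b.Rows
import Vale.Agent.P224.PO.R9b.El
import Vale.Agent.P224.PO.R9b.DF0
import Vale.Agent.P224.PO.R9b.DF1

/-!
The identity of the certificate in dimension 9 and the positivity of its left side.
-/

namespace Vale.Agent.P224.PO.R9b

open Vale.Agent.P224.UE Vale.Agent.P224.POS Vale.Agent.P224.PO
open scoped RealInnerProductSpace

noncomputable section

/-- the blocks with the multiplier number 0 -/
def B1 : List BlkX := [⟨els0, 281474976710656, N0⟩,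
  ⟨els1, 17592186044416, N1⟩,
  ⟨els2, 2251799813685248, N2⟩,
  ⟨els3, 1125899906842624, N3⟩,
  ⟨els4, 4503599627370496, N4⟩,
  ⟨els5, 4503599627370496, N5⟩]

/-- the blocks with the multiplier number 1 -/
def Br : List BlkX := [⟨els6, 562949953421312, N6⟩,
  ⟨els7, 70368744177664, N7⟩,
  ⟨els8, 2251799813685248, N8⟩,
  ⟨els9, 2251799813685248, N9⟩,
  ⟨els10, 4503599627370496, N10⟩,
  ⟨els11, 4503599627370496, N11⟩]

/-- the blocks with the multiplier number 2 -/
def S1 : List BlkX := [⟨els12, 4096, N12⟩,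
  ⟨els13, 536870912, N13⟩]

/-- the blocks with the multiplier number 3 -/
def Sr : List BlkX := [⟨els14, 4096, N14⟩,
  ⟨els15, 2097152, N15⟩,
  ⟨els16, 4294967296, N16⟩]

/-- the integers replacing the first four variables (not powers of two: the kernel hashes a numeral
by its last 64 bits) -/
def Ms : List Nat := [
  Nat.add (Nat.pow 2 79) 1090297408444377839,
  Nat.add (Nat.pow 2 1245) 672893673074899541,
  Nat.add (Nat.pow 2 8853) 494586791774247929,
  Nat.add (Nat.pow 2 62109) 946030352018653745]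

set_option maxRecDepth 100000 in
/-- **The identity**, checked by the kernel. -/
theorem idM : chkX Ms (PE.sb sbH P) 8 tabH (mulX B1 Br S1 Sr) = true := by
  decide +kernel

lemma hB1 : GoodX B1 :=
  (goodX_cons psd0 (goodX_cons psd1 (goodX_cons psd2 (goodX_cons psd3 (goodX_cons psd4 (goodX_cons psd5 goodX_nil))))))

lemma hBr : GoodX Br :=
  (goodX_cons psd6 (goodX_cons psd7 (goodX_cons psd8 (goodX_cons psd9 (goodX_cons psd10 (goodX_cons psd11 goodX_nil))))))

lemma hS1 : GoodX S1 :=
  (goodX_cons psd12 (goodX_cons psd13 goodX_nil))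

lemma hSr : GoodX Sr :=
  (goodX_cons psd14 (goodX_cons psd15 (goodX_cons psd16 goodX_nil)))

/-- **Positivity** of the left side on pair data with a vector of length at most `5 / 6`. -/
theorem pos {E : Type*} [NormedAddCommGroup E] [InnerProductSpace ℝ E] {e x N y w : E}
    (he : ‖e‖ ^ 2 ≤ 25 / 36) (hx : ‖x‖ = 1) (hN : ‖N‖ = 1) (hy : ‖y‖ = 1) (hw : ‖w‖ = 1)
    (hxN : ⟪x, N⟫ = 0) (hyw : ⟪y, w⟫ = 0) (hs : ⟪x, y⟫ < 1) :
    0 ≤ PE.ev (vh (dv x N y w e)) P :=
  nonneg_of_chkX 8 (by norm_num) idM rfl hB1 hBr hS1 hSr he hx hN hy hw hxN hyw hs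

/-- **The pointwise inequality of the certificate.** -/
theorem hpos {E : Type*} [NormedAddCommGroup E] [InnerProductSpace ℝ E] (e x N y w : E)
    (he : ‖e‖ ^ 2 ≤ 25 / 36) (hx : ‖x‖ = 1) (hN : ‖N‖ = 1) (hy : ‖y‖ = 1) (hw : ‖w‖ = 1)
    (hxN : ⟪x, N⟫ = 0) (hyw : ⟪y, w⟫ = 0) (hs : ⟪x, y⟫ < 1) :
    0 ≤ Vale.Agent.P224.UE.W9 (1574910820352 / 1099511627776) (577000876480 / 1099511627776) (-3775656098304 / 1099511627776) (5564531722560 / 1099511627776) (-3729548037952 / 1099511627776) (-1370850304192 / 1099511627776) (1580258364736 / 1099511627776) (254153401408 / 1099511627776) (0 / 1099511627776)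
        (dv x N y w e)
      + hsum 9 (rlH 1099511627776 rows) (dv x N y w e) + XF (-5334349381632 / 1099511627776) (111132278784 / 1099511627776) (-173969768448 / 1099511627776) (dv x N y w e)
      + (0 / 1099511627776) * (dv x N y w e) 0 ^ 3 :=
  pos_of hs (pos he hx hN hy hw hxN hyw hs)

end

end Vale.Agent.P224.PO.R9b
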